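import Vale.Agent.P235.Bdl.B1

/-!
P235, line K5, row (c) COLLAR: a metric `rho ≤ d` on three points extends to an `L₁` semimetric
below `d` which is large near every pair of roots with small `rho`.
-/

set_option autoImplicit false
set_option linter.all false

namespace Vale.Agent.P235.K5.H913

open Vale.Agent.P235

/-- McShane extension from a consistent relation of prescribed values. -/
theorem mcs {V : Type} [Finite V] {d : V → V → ℝ} (hd : IsMet d) (P : V → ℝ → Prop)
    (hP : ∀ x a y b, P x a → P y b → a - b ≤ d x y) (hne : ∃ x a, P x a) :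
    ∃ g : V → ℝ, (∀ x y, |g x - g y| ≤ d x y) ∧ ∀ x a, P x a → g x = a := by
  classical
  haveI := Fintype.ofFinite V
  set S : Finset V := Finset.univ.filter (fun x => ∃ a, P x a) with hS
  have hSne : S.Nonempty := by
    obtain ⟨x, a, h⟩ := hne
    exact ⟨x, by simp [hS]; exact ⟨a, h⟩⟩
  let f : V → ℝ := fun x => if h : ∃ a, P x a then h.choose else 0
  have hf : ∀ x ∈ S, P x (f x) := by
    intro x hx
    have h : ∃ a, P x a := by simpa [hS] using hx
    simp only [f, dif_pos h]
    exact h.choose_spec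
  have huniq : ∀ x a b, P x a → P x b → a = b := by
    intro x a b h1 h2
    have h3 := hP _ _ _ _ h1 h2
    have h4 := hP _ _ _ _ h2 h1
    rw [hd.self] at h3 h4
    linarith
  let g : V → ℝ := fun x => S.inf' hSne (fun z => f z + d z x)
  have hg : ∀ x y, g x ≤ g y + d x y := by
    intro x y
    obtain ⟨z, hz, hz'⟩ := S.exists_mem_eq_inf' hSne (fun z => f z + d z y)
    have h1 : g x ≤ f z + d z x := Finset.inf'_le _ hz
    have h2 : g y = f z + d z y := hz'
    have h3 := hd.tri z y x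
    have h4 := hd.symm x y
    linarith
  refine ⟨g, ?_, ?_⟩
  · intro x y
    have h1 := hg x y
    have h2 := hg y x
    rw [hd.symm y x] at h2
    rw [abs_le]
    constructor <;> linarith
  · intro x a h
    have hx : x ∈ S := by simp [hS]; exact ⟨a, h⟩
    have h1 : g x ≤ f x + d x x := Finset.inf'_le _ hx
    rw [hd.self, add_zero, huniq x _ _ (hf x hx) h] at h1
    obtain ⟨z, hz, hz'⟩ := S.exists_mem_eq_inf' hSne (fun z => f z + d z x)
    have h2 : g x = f z + d z x := hz'
    have h3 := hP _ _ _ _ h (hf z hz)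
    rw [hd.symm x z] at h3
    linarith

/-- The map with the third root `u`. -/
theorem mapU {V : Type} [Finite V] {d : V → V → ℝ} (hd : IsMet d) (r s u : V) (a b c τ1 τ2 : ℝ)
    (ha : 0 ≤ a) (hb : 0 ≤ b) (hc : 0 ≤ c) (h1 : a ≤ b + c) (h2 : b ≤ a + c) (h3 : c ≤ a + b)
    (hτ1 : 0 ≤ τ1) (hτ2 : 0 ≤ τ2) (i1 : b + 4 * τ1 ≤ d r u) (i2 : c + 4 * τ1 ≤ d s u)
    (j1 : a + 4 * τ2 ≤ d r s) (j2 : (a + b - c) / 2 + 2 * τ2 ≤ d r u)
    (j3 : (a + c - b) / 2 + 2 * τ2 ≤ d s u) :
    ∃ F : V → V → ℝ, IsL1 F ∧ (∀ x y, F x y ≤ d x y) ∧ F r s = a ∧ F r u = b ∧ F s u = c ∧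
      (∀ x y, d x r ≤ τ2 → d y s ≤ τ2 → a + d x r + d y s ≤ F x y) ∧
      (∀ x y, (d x r ≤ τ1 ∨ d x s ≤ τ1) → d y u ≤ τ1 →
        min (b + d x r) (c + d x s) + d y u ≤ F x y) := by
  have nn : ∀ x y, 0 ≤ d x y := by
    intro x y
    by_cases h : x = y
    · subst h; rw [hd.self]
    · exact (hd.pos x y h).le
  have srs : d s r = d r s := hd.symm s r
  have sru : d u r = d r u := hd.symm u r
  have ssu : d u s = d s u := hd.symm u s
  -- psi1
  obtain ⟨f, hf, hf'⟩ := mcs hd (fun x v => ((d x r ≤ τ1 ∨ d x s ≤ τ1) ∧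
      v = min (b + d x r) (c + d x s)) ∨ (d x u ≤ τ1 ∧ v = - d x u)) (by
    have key : ∀ x y, (d x r ≤ τ1 ∨ d x s ≤ τ1) → d y u ≤ τ1 →
        min (b + d x r) (c + d x s) + d y u ≤ d x y := by
      intro x y hx hy
      rcases hx with hx | hx
      · have e1 := min_le_left (b + d x r) (c + d x s)
        have e2 := hd.tri r x u
        have e3 := hd.tri x y u
        rw [hd.symm r x] at e2
        linarith
      · have e1 := min_le_right (b + d x r) (c + d x s)
        have e2 := hd.tri s x u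
        have e3 := hd.tri x y u
        rw [hd.symm s x] at e2
        linarith
    rintro x v y w (⟨hx, rfl⟩ | ⟨hx, rfl⟩) (⟨hy, rfl⟩ | ⟨hy, rfl⟩)
    · have e1 := hd.tri x y r
      have e2 := hd.tri x y s
      rcases min_cases (b + d y r) (c + d y s) with ⟨e, _⟩ | ⟨e, _⟩ <;> rw [e]
      · have := min_le_left (b + d x r) (c + d x s)
        linarith
      · have := min_le_right (b + d x r) (c + d x s)
        linarith
    · have := key x y hx hy
      linarith
    · have e0 : 0 ≤ min (b + d y r) (c + d y s) :=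
        le_min (add_nonneg hb (nn _ _)) (add_nonneg hc (nn _ _))
      have := nn x y
      have := nn x u
      linarith
    · have e1 := hd.tri y x u
      rw [hd.symm y x] at e1
      linarith) ⟨u, _, Or.inr ⟨by rw [hd.self]; exact hτ1, rfl⟩⟩
  have fr : f r = b := by
    rw [hf' r _ (Or.inl ⟨Or.inl (by rw [hd.self]; exact hτ1), rfl⟩), hd.self, add_zero,
      min_eq_left]
    linarith
  have fs : f s = c := by
    rw [hf' s _ (Or.inl ⟨Or.inr (by rw [hd.self]; exact hτ1), rfl⟩), hd.self, add_zero,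
      min_eq_right]
    linarith
  have fu : f u = 0 := by
    rw [hf' u _ (Or.inr ⟨by rw [hd.self]; exact hτ1, rfl⟩), hd.self, neg_zero]
  -- psi2
  obtain ⟨g, hg, hg'⟩ := mcs hd (fun x v => (d x r ≤ τ2 ∧ v = - ((a + b - c) / 2) - d x r) ∨
      (d x s ≤ τ2 ∧ v = (a + c - b) / 2 + d x s) ∨ (x = u ∧ v = 0)) (by
    rintro x v y w (⟨hx, rfl⟩ | ⟨hx, rfl⟩ | ⟨rfl, rfl⟩) (⟨hy, rfl⟩ | ⟨hy, rfl⟩ | ⟨rfl, rfl⟩)
    · have e1 := hd.tri y x r
      rw [hd.symm y x] at e1
      linarith
    · have := nn x y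
      have := nn x r
      have := nn y s
      linarith
    · have := nn x y
      have := nn x r
      linarith
    · have e1 := hd.tri s x r
      have e2 := hd.tri x y r
      rw [hd.symm s x] at e1
      linarith
    · have e1 := hd.tri x y s
      linarith
    · have e2 := hd.tri s x y
      rw [hd.symm s x] at e2
      linarith
    · have e1 := hd.tri r y x
      rw [hd.symm r y, hd.symm y x] at e1
      linarith
    · have := nn x y
      have := nn y s
      linarith
    · rw [hd.self]; simp) ⟨u, 0, Or.inr (Or.inr ⟨rfl, rfl⟩)⟩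
  have gr : g r = - ((a + b - c) / 2) := by
    rw [hg' r _ (Or.inl ⟨by rw [hd.self]; exact hτ2, rfl⟩), hd.self, sub_zero]
  have gs : g s = (a + c - b) / 2 := by
    rw [hg' s _ (Or.inr (Or.inl ⟨by rw [hd.self]; exact hτ2, rfl⟩)), hd.self, add_zero]
  have gu : g u = 0 := hg' u _ (Or.inr (Or.inr ⟨rfl, rfl⟩))
  refine ⟨fun x y => max |f x - f y| |g x - g y|, isL1_max f g, fun x y => max_le (hf x y) (hg x y),
    ?_, ?_, ?_, ?_, ?_⟩
  · show max |f r - f s| |g r - g s| = a
    rw [fr, fs, gr, gs, show -((a + b - c) / 2) - (a + c - b) / 2 = -a by ring, abs_neg,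
      abs_of_nonneg ha, max_eq_right]
    rw [abs_le]
    constructor <;> linarith
  · show max |f r - f u| |g r - g u| = b
    rw [fr, fu, gr, gu, sub_zero, abs_of_nonneg hb, sub_zero, abs_neg, max_eq_left]
    rw [abs_le]
    constructor <;> linarith
  · show max |f s - f u| |g s - g u| = c
    rw [fs, fu, gs, gu, sub_zero, abs_of_nonneg hc, sub_zero, max_eq_left]
    rw [abs_le]
    constructor <;> linarith
  · intro x y hx hy
    refine le_trans ?_ (le_max_right _ _)
    rw [hg' x _ (Or.inl ⟨hx, rfl⟩), hg' y _ (Or.inr (Or.inl ⟨hy, rfl⟩)), abs_sub_comm]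
    refine le_trans (le_of_eq ?_) (le_abs_self _)
    ring
  · intro x y hx hy
    refine le_trans ?_ (le_max_left _ _)
    rw [hf' x _ (Or.inl ⟨hx, rfl⟩), hf' y _ (Or.inr ⟨hy, rfl⟩)]
    refine le_trans (le_of_eq ?_) (le_abs_self _)
    ring

/-- The collar lemma for three labelled roots, `r s` the closest pair. -/
theorem collar3 {V : Type} [Finite V] {d : V → V → ℝ} (hd : IsMet d) (r s u : V) (a b c : ℝ)
    (ha : 0 ≤ a) (hb : 0 ≤ b) (hc : 0 ≤ c) (h1 : a ≤ b + c) (h2 : b ≤ a + c) (h3 : c ≤ a + b)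
    (la : a ≤ d r s) (lb : b ≤ d r u) (lc : c ≤ d s u) (c1 : d r s ≤ d r u) (c2 : d r s ≤ d s u) :
    ∃ F : V → V → ℝ, IsL1 F ∧ (∀ x y, F x y ≤ d x y) ∧ F r s = a ∧ F r u = b ∧ F s u = c ∧
      (∀ x y, a ≤ d r s / 16 → d x r ≤ d r s / 16 → d y s ≤ d r s / 16 →
        a + d x r + d y s ≤ F x y) ∧
      (∀ x y, b ≤ d r u / 32 → d x r ≤ d r u / 32 → d y u ≤ d r u / 32 →
        b + d x r + d y u ≤ F x y ∨ c + d x s + d y u ≤ F x y) ∧
      (∀ x y, c ≤ d s u / 32 → d x s ≤ d s u / 32 → d y u ≤ d s u / 32 →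
        b + d x r + d y u ≤ F x y ∨ c + d x s + d y u ≤ F x y) := by
  have nn : ∀ x y, 0 ≤ d x y := by
    intro x y
    by_cases h : x = y
    · subst h; rw [hd.self]
    · exact (hd.pos x y h).le
  have n1 := nn r s
  have n2 := nn r u
  have n3 := nn s u
  have t1 := hd.tri r s u
  have t2 := hd.tri s r u
  rw [hd.symm s r] at t2
  set Δ := min (d r u) (d s u) with hΔ
  have m1 : Δ ≤ d r u := min_le_left _ _
  have m2 : Δ ≤ d s u := min_le_right _ _
  have m3 : d r s ≤ Δ := le_min c1 c2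
  have m4 : d r u ≤ 2 * Δ := by
    rcases min_cases (d r u) (d s u) with ⟨e, _⟩ | ⟨e, _⟩ <;> rw [hΔ, e] <;> linarith
  have m5 : d s u ≤ 2 * Δ := by
    rcases min_cases (d r u) (d s u) with ⟨e, _⟩ | ⟨e, _⟩ <;> rw [hΔ, e] <;> linarith
  have m6 : 0 ≤ Δ := n1.trans m3
  by_cases hA : a ≤ Δ / 2
  · -- case A
    obtain ⟨τ1, q1, q2, q3, q4⟩ : ∃ τ1 : ℝ, 0 ≤ τ1 ∧ b + 4 * τ1 ≤ d r u ∧ c + 4 * τ1 ≤ d s u ∧
        ((b ≤ d r u / 32 ∨ c ≤ d s u / 32) → Δ / 16 ≤ τ1) := by
      by_cases h : b ≤ d r u / 32 ∨ c ≤ d s u / 32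
      · refine ⟨Δ / 16, by linarith, ?_, ?_, fun _ => le_rfl⟩
        · rcases h with h | h <;> linarith
        · rcases h with h | h <;> linarith
      · exact ⟨0, le_rfl, by linarith, by linarith, fun h' => absurd h' h⟩
    obtain ⟨τ2, p1, p2, p3, p4, p5⟩ : ∃ τ2 : ℝ, 0 ≤ τ2 ∧ a + 4 * τ2 ≤ d r s ∧
        (a + b - c) / 2 + 2 * τ2 ≤ d r u ∧ (a + c - b) / 2 + 2 * τ2 ≤ d s u ∧
        (a ≤ d r s / 16 → d r s / 16 ≤ τ2) := by
      by_cases h : a ≤ d r s / 16
      · exact ⟨d r s / 16, by linarith, by linarith, by linarith, by linarith, fun _ => le_rfl⟩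
      · exact ⟨0, le_rfl, by linarith, by linarith, by linarith, fun h' => absurd h' h⟩
    obtain ⟨F, F1, F2, F3, F4, F5, F6, F7⟩ := mapU hd r s u a b c τ1 τ2 ha hb hc h1 h2 h3 q1 p1
      q2 q3 p2 p3 p4
    refine ⟨F, F1, F2, F3, F4, F5, ?_, ?_, ?_⟩
    · intro x y k1 k2 k3
      have k4 := p5 k1
      exact F6 x y (by linarith) (by linarith)
    · intro x y k1 k2 k3
      have k4 := q4 (Or.inl k1)
      have k5 := F7 x y (Or.inl (by linarith)) (by linarith)
      rcases min_cases (b + d x r) (c + d x s) with ⟨e, _⟩ | ⟨e, _⟩ <;> rw [e] at k5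
      · exact Or.inl (by linarith)
      · exact Or.inr (by linarith)
    · intro x y k1 k2 k3
      have k4 := q4 (Or.inr k1)
      have k5 := F7 x y (Or.inr (by linarith)) (by linarith)
      rcases min_cases (b + d x r) (c + d x s) with ⟨e, _⟩ | ⟨e, _⟩ <;> rw [e] at k5
      · exact Or.inl (by linarith)
      · exact Or.inr (by linarith)
  · -- case B
    push Not at hA
    by_cases hB : b ≤ d r u / 32
    · -- the pair r u is small: third root s
      obtain ⟨F, F1, F2, F3, F4, F5, F6, F7⟩ := mapU hd r u s b a c 0 (Δ / 16) hb ha hc h2 h1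
        (by linarith) le_rfl (by linarith) (by linarith) (by rw [hd.symm u s]; linarith)
        (by linarith) (by linarith) (by rw [hd.symm u s]; linarith)
      refine ⟨F, F1, F2, F4, F3, by rw [F1.symm]; exact F5, ?_, ?_, ?_⟩
      · intro x y k1 k2 k3
        exfalso
        have : d r s ≤ 0 := by linarith
        linarith
      · intro x y k1 k2 k3
        exact Or.inl (F6 x y (by linarith) (by linarith))
      · intro x y k1 k2 k3
        exfalso
        linarith
    · by_cases hC : c ≤ d s u / 32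
      · obtain ⟨F, F1, F2, F3, F4, F5, F6, F7⟩ := mapU hd s u r c a b 0 (Δ / 16) hc ha hb
          (by linarith) (by linarith) (by linarith) le_rfl (by linarith)
          (by rw [hd.symm s r]; linarith) (by rw [hd.symm u r]; linarith)
          (by linarith) (by rw [hd.symm s r]; linarith) (by rw [hd.symm u r]; linarith)
        refine ⟨F, F1, F2, by rw [F1.symm]; exact F4, by rw [F1.symm]; exact F5, F3, ?_, ?_, ?_⟩
        · intro x y k1 k2 k3
          exfalso
          linarith
        · intro x y k1 k2 k3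
          exact absurd k1 hB
        · intro x y k1 k2 k3
          exact Or.inr (F6 x y (by linarith) (by linarith))
      · obtain ⟨F, F1, F2, F3, F4, F5, F6, F7⟩ := mapU hd r s u a b c 0 0 ha hb hc h1 h2 h3
          le_rfl le_rfl (by linarith) (by linarith) (by linarith) (by linarith) (by linarith)
        refine ⟨F, F1, F2, F3, F4, F5, ?_, ?_, ?_⟩
        · intro x y k1 k2 k3
          exfalso
          linarith
        · intro x y k1 k2 k3
          exact absurd k1 hB
        · intro x y k1 k2 k3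
          exact absurd k1 hC

theorem fin3_cases : ∀ i j k : Fin 3, i ≠ j → j ≠ k → i ≠ k → ∀ p : Fin 3,
    p = i ∨ p = j ∨ p = k := by decide

theorem collarL {V : Type} [Finite V] {d : V → V → ℝ} (hd : IsMet d) (R : Fin 3 → V)
    (rho : Fin 3 → Fin 3 → ℝ) (h0 : ∀ p, rho p p = 0) (hs : ∀ p q, rho p q = rho q p)
    (ht : ∀ p q r, rho p r ≤ rho p q + rho q r) (hle : ∀ p q, rho p q ≤ d (R p) (R q))
    (i j k : Fin 3) (hij : i ≠ j) (hjk : j ≠ k) (hik : i ≠ k)
    (c1 : d (R i) (R j) ≤ d (R i) (R k)) (c2 : d (R i) (R j) ≤ d (R j) (R k)) :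
    ∃ F : V → V → ℝ, IsL1 F ∧ (∀ x y, F x y ≤ d x y) ∧ (∀ p q, F (R p) (R q) = rho p q) ∧
      ∀ x y p q, rho p q + (d x (R p) + d y (R q)) / 2 ≤ d x y / 128 →
        ∃ p' q', rho p' q' + d x (R p') + d y (R q') ≤ F x y := by
  have nn : ∀ x y, 0 ≤ d x y := by
    intro x y
    by_cases h : x = y
    · subst h; rw [hd.self]
    · exact (hd.pos x y h).le
  have rn : ∀ p q, 0 ≤ rho p q := by
    intro p q
    have e1 := ht p q p
    rw [h0, hs q p] at e1
    linarith
  obtain ⟨F, F1, F2, F3, F4, F5, F6, F7, F8⟩ := collar3 hd (R i) (R j) (R k) (rho i j) (rho i k)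
    (rho j k) (rn _ _) (rn _ _) (rn _ _) (by have := ht i k j; rw [hs k j] at this; exact this)
    (ht i j k) (by have := ht j i k; rw [hs j i] at this; exact this) (hle _ _) (hle _ _) (hle _ _)
    c1 c2
  refine ⟨F, F1, F2, ?_, ?_⟩
  · intro p q
    rcases fin3_cases i j k hij hjk hik p with rfl | rfl | rfl <;>
    rcases fin3_cases _ _ _ hij hjk hik q with h | h | h <;> subst h
    · rw [F1.self, h0]
    · exact F3
    · exact F4
    · rw [F1.symm, hs]; exact F3
    · rw [F1.self, h0]
    · exact F5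
    · rw [F1.symm, hs]; exact F4
    · rw [F1.symm, hs]; exact F5
    · rw [F1.self, h0]
  · intro x y p q H
    have e1 := hd.tri x (R p) y
    have e2 := hd.tri (R p) (R q) y
    rw [hd.symm (R q) y] at e2
    have e3 := rn p q
    have e4 := nn x (R p)
    have e5 := nn y (R q)
    have u1 : d x (R p) ≤ d (R p) (R q) / 63 := by linarith
    have u2 : d y (R q) ≤ d (R p) (R q) / 63 := by linarith
    have u3 : rho p q ≤ d (R p) (R q) / 126 := by linarith
    have e6 := nn (R p) (R q)
    by_cases hpq : p = q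
    · subst hpq
      refine ⟨p, p, ?_⟩
      have := F1.nonneg x y
      rw [hd.self] at u1 u2
      rw [h0]
      linarith
    rcases fin3_cases i j k hij hjk hik p with hp | hp | hp <;>
    rcases fin3_cases i j k hij hjk hik q with hq | hq | hq <;> rw [hp, hq] at u1 u2 u3 e6
    · exact absurd (hp.trans hq.symm) hpq
    · exact ⟨i, j, F6 x y (by linarith) (by linarith) (by linarith)⟩
    · rcases F7 x y (by linarith) (by linarith) (by linarith) with h | h
      · exact ⟨i, k, h⟩
      · exact ⟨j, k, h⟩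
    · have g1 := hs j i
      have g2 := hd.symm (R j) (R i)
      have h := F6 y x (by linarith) (by linarith) (by linarith)
      rw [F1.symm y x] at h
      exact ⟨j, i, by linarith⟩
    · exact absurd (hp.trans hq.symm) hpq
    · rcases F8 x y (by linarith) (by linarith) (by linarith) with h | h
      · exact ⟨i, k, h⟩
      · exact ⟨j, k, h⟩
    · have g1 := hs k i
      have g2 := hd.symm (R k) (R i)
      have g3 := hs k j
      rcases F7 y x (by linarith) (by linarith) (by linarith) with h | h <;>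
        rw [F1.symm y x] at h
      · exact ⟨k, i, by linarith⟩
      · exact ⟨k, j, by linarith⟩
    · have g1 := hs k j
      have g2 := hd.symm (R k) (R j)
      have g3 := hs k i
      rcases F8 y x (by linarith) (by linarith) (by linarith) with h | h <;>
        rw [F1.symm y x] at h
      · exact ⟨k, i, by linarith⟩
      · exact ⟨k, j, by linarith⟩
    · exact absurd (hp.trans hq.symm) hpq

/-- **COLLAR.**  Every metric `rho ≤ d` on three points `R 0, R 1, R 2` extends to an `L₁`
semimetric `F ≤ d` such that `F x y ≥ rho p q + d x (R p) + d y (R q)` for some `p q` as soon as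
some `rho p q + (d x (R p) + d y (R q)) / 2` is at most `d x y / 128`. -/
theorem collar {V : Type} [Finite V] {d : V → V → ℝ} (hd : IsMet d) (R : Fin 3 → V)
    (rho : Fin 3 → Fin 3 → ℝ) (h0 : ∀ p, rho p p = 0) (hs : ∀ p q, rho p q = rho q p)
    (ht : ∀ p q r, rho p r ≤ rho p q + rho q r) (hle : ∀ p q, rho p q ≤ d (R p) (R q)) :
    ∃ F : V → V → ℝ, IsL1 F ∧ (∀ x y, F x y ≤ d x y) ∧ (∀ p q, F (R p) (R q) = rho p q) ∧
      ∀ x y p q, rho p q + (d x (R p) + d y (R q)) / 2 ≤ d x y / 128 →
        ∃ p' q', rho p' q' + d x (R p') + d y (R q') ≤ F x y := by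
  have s1 := hd.symm (R 1) (R 0)
  have s2 := hd.symm (R 2) (R 0)
  have s3 := hd.symm (R 2) (R 1)
  by_cases h1 : d (R 0) (R 1) ≤ d (R 0) (R 2)
  · by_cases h2 : d (R 0) (R 1) ≤ d (R 1) (R 2)
    · exact collarL hd R rho h0 hs ht hle 0 1 2 (by decide) (by decide) (by decide) h1 h2
    · push Not at h2
      exact collarL hd R rho h0 hs ht hle 1 2 0 (by decide) (by decide) (by decide)
        (by linarith) (by linarith)
  · push Not at h1
    by_cases h2 : d (R 0) (R 2) ≤ d (R 1) (R 2)
    · exact collarL hd R rho h0 hs ht hle 0 2 1 (by decide) (by decide) (by decide)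
        (by linarith) (by linarith)
    · push Not at h2
      exact collarL hd R rho h0 hs ht hle 1 2 0 (by decide) (by decide) (by decide)
        (by linarith) (by linarith)

end Vale.Agent.P235.K5.H913
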